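import Crest.Agent.X212.Cqn41.Nr0
import Crest.Agent.X212.Nt92.Main
import Crest.Agent.X212.Nt66.Ln
import Crest.Agent.X212.Mp86.St

/-!
# Row 212, NT-R (helper32): combinations of curvature words as perturbations that keep a solution
-/

set_option autoImplicit false
set_option linter.unusedSectionVars false
noncomputable section
open scoped Manifold ContDiff Topology InnerProductSpace Real
open MeasureTheory Set Function Filter

namespace Crest.Agent.X212.Rc32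
open An M Nd18 Mod61 Cht98 Rf65 Pte3 Qab60 Prm93 Sob92 Nt66 Nr41 Wrd81
open An.Job (Sol SolOn)

section calc0
variable {X Y : Type} [NormedAddCommGroup X] [NormedSpace ℝ X] [NormedAddCommGroup Y]
  [NormedSpace ℝ Y]

/-- the derivative at `0` -/
abbrev HD (f : ℝ → X) (a : X) : Prop := HasDerivAt f a 0

theorem dcl (L : X →L[ℝ] Y) {f : ℝ → X} {a : X} (h : HasDerivAt f a 0) :
    HasDerivAt (fun s => L (f s)) (L a) 0 := L.hasFDerivAt.comp_hasDerivAt 0 h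

theorem dfst {f : ℝ → X × Y} {a : X × Y} (h : HasDerivAt f a 0) :
    HasDerivAt (fun s => (f s).1) a.1 0 := dcl (.fst ℝ X Y) h

theorem dsnd {f : ℝ → X × Y} {a : X × Y} (h : HasDerivAt f a 0) :
    HasDerivAt (fun s => (f s).2) a.2 0 := dcl (.snd ℝ X Y) h

theorem duq {f g : ℝ → X} {a d : X} (h : HasDerivAt f a 0) (k : HasDerivAt g d 0)
    (e : ∀ s, f s = -g s) : a = -d := h.unique ((funext e : f = _) ▸ k.neg)

theorem sum_cl {K : Type} (L : X →L[ℝ] Y) (w : K →₀ ℝ) (a : K → X) :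
    L (w.sum fun u t => t • a u) = ∑ u : w.support, w u • L (a u) := by
  rw [Finsupp.sum, ← Finset.sum_coe_sort, map_sum]
  simp only [map_smul]

theorem HD.congr {f g : ℝ → X} {a : X} (h : HD g a) (e : ∀ s, f s = g s) : HD f a :=
  (funext e : f = g) ▸ h

theorem HD.zero {f : ℝ → X} (e : ∀ s, f s = 0) : HD f 0 := HD.congr (hasDerivAt_const _ _) e

theorem neg_rg {L L' : X →L[ℝ] Y} {v : X} (k : L v = 0) (h : L' v ∈ range L) :
    -(L' v - L v) ∈ range L := let ⟨u, e⟩ := h; ⟨-u, by rw [map_neg, e, k, sub_zero]⟩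

theorem ind_sub {M V : Type} [AddCommGroup V] {O : Set M} {u v w : M → V}
    (e : ∀ z, u z - v z = -w z) (z : M) :
    (O.indicator u - O.indicator v) z = -O.indicator w z := by
  by_cases hz : z ∈ O <;> simp [hz, e]

end calc0

section job
variable {Wi : Type} {X : Mf 4} {A κ lam : Type} [Fintype A] [Fintype κ] [Fintype lam]
  [DecidableEq lam] {M : Mark X A κ} {W : World M} {N : ML M lam} {Λ : Lns W N}
  {A' h : Type} [Fintype A'] [DecidableEq A'] [Fintype h] {r n : ℕ}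
  {J : Job Wi Λ A' h r n} {c : M.Cl} {σ : Cel A'} {s : A' → ℝ} {q q' : Wi →₀ ℝ}

variable (J c) in
/-- the terms of a perturbation -/
abbrev tm (q : Wi →₀ ℝ) (s : A' → ℝ) : Pt (W.Z c).M (Option κ) (lam ⊕ lam) r n := fsum (J.τw c s) q

theorem τ_add (t : ℝ) (x : Cfg (W.Z c).M (Option κ) (lam ⊕ lam) r) :
    (∀ z, (J.τ c (q + t • q') s).D x z = (J.τ c q s).D x z + t • (tm J c q' s).D x z) ∧
    (∀ z, (J.τ c (q + t • q') s).C x z = (J.τ c q s).C x z + t • (tm J c q' s).C x z) ∧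
    ∀ i, (J.τ c (q + t • q') s).S x i = (J.τ c q s).S x i + t * (tm J c q' s).S x i := by
  refine ⟨fun z => ?_, fun z => ?_, fun i => ?_⟩ <;>
    simp only [Job.τ, Pt.add, fsum, add_assoc, add_right_inj]
  · rw [Finsupp.sum_add_index' (by simp) (by simp [add_smul]), Finsupp.sum_smul_index' (by simp),
      Finsupp.smul_sum]
    simp only [smul_eq_mul, mul_smul]
  · rw [Finsupp.sum_add_index' (by simp) (by simp [add_smul]), Finsupp.sum_smul_index' (by simp),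
      Finsupp.smul_sum]
    simp only [smul_eq_mul, mul_smul]
  · rw [Finsupp.sum_add_index' (by simp) (by simp [add_mul]), Finsupp.sum_smul_index' (by simp),
      Finsupp.mul_sum]
    simp only [smul_eq_mul, Complex.ofReal_mul, mul_assoc]

theorem tm_sum {K : Type} [Fintype K] (v : K → Wi) (a : K → ℝ) (hv : ∀ j, J.Nn (v j) s)
    (h0 : ∀ j, J.co (v j) s ≠ 0) (x : Cfg (W.Z c).M (Option κ) (lam ⊕ lam) r) :
    (∀ z, (tm J c (∑ j, Finsupp.single (v j) (a j / J.co (v j) s)) s).D x z =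
      ∑ j, a j • x.tD (J.B c) (J.G c s).F ((J.tp c).tm (J.tw (v j))) z) ∧
    (∀ z, (tm J c (∑ j, Finsupp.single (v j) (a j / J.co (v j) s)) s).C x z =
      ∑ j, a j • x.tC (J.B c) (J.G c s).F ((J.tp c).tm (J.tw (v j))) z) ∧
    ∀ i, (tm J c (∑ j, Finsupp.single (v j) (a j / J.co (v j) s)) s).S x i =
      ∑ j, a j • x.tS (J.G c s).F ((J.tp c).tm (J.tw (v j))) i := by
  refine ⟨fun z => ?_, fun z => ?_, fun i => ?_⟩ <;> simp only [fsum]
  · rw [← Finsupp.sum_finsetSum_index (by simp) (by simp [add_smul])]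
    refine Finset.sum_congr rfl fun j _ => ?_
    rw [Finsupp.sum_single_index (by simp), (τw_eq (hv j) x).1, Pi.smul_apply, smul_smul,
      div_mul_cancel₀ _ (h0 j)]
  · rw [← Finsupp.sum_finsetSum_index (by simp) (by simp [add_smul])]
    refine Finset.sum_congr rfl fun j _ => ?_
    rw [Finsupp.sum_single_index (by simp), (τw_eq (hv j) x).2.1, Pi.smul_apply, smul_smul,
      div_mul_cancel₀ _ (h0 j)]
  · rw [← Finsupp.sum_finsetSum_index (by simp) (by simp [add_mul])]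
    refine Finset.sum_congr rfl fun j _ => ?_
    rw [Finsupp.sum_single_index (by simp), (τw_eq (hv j) x).2.2, Pi.smul_apply, ← Complex.real_smul,
      smul_smul, div_mul_cancel₀ _ (h0 j)]

theorem supp_sum {K : Type} [Fintype K] {v : K → Wi} {a : K → ℝ} {w : Wi}
    (hw : w ∈ (∑ j, Finsupp.single (v j) (a j)).support) : ∃ j, w = v j := by
  classical
  obtain ⟨j, -, k⟩ := Finsupp.mem_support_finsetSum _ hw
  exact ⟨j, Finset.mem_singleton.1 (Finsupp.support_single_subset k)⟩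

theorem σc_add (k : ∀ w ∈ q'.support, ∀ i, J.cc i w s = 0) (t : ℝ) (i : h) :
    J.σc c (q + t • q') s i = J.σc c q s i := funext fun x => by
  rw [Job.σc, Finsupp.sum_add_index' (fun _ => by rw [zero_mul, zero_smul])
    fun _ _ _ => by rw [add_mul, add_smul]]
  refine add_eq_left.2 (Finset.sum_eq_zero fun w hw => ?_)
  beta_reduce
  rw [k w (Finsupp.support_smul hw), mul_zero, zero_smul]

/-- perturbations without cut terms whose field terms vanish at `y` keep `y` -/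
theorem mem_Kp (hP : PJ J c) {y : J.Obc c} (k : ∀ w ∈ q'.support, ∀ i, J.cc i w y.s = 0)
    (hD : ∀ z, (tm J c q' y.s).D y.x z = 0) (hC : ∀ z, (tm J c q' y.s).C y.x z = 0)
    (hS : ∀ i, (tm J c q' y.s).S y.x i = 0) : q' ∈ Kp σ y := fun q h t => by
  obtain ⟨e1, e2, e3⟩ := τ_add (J := J) (c := c) (q := q) (q' := q') (s := y.s) t y.x
  refine ⟨h.cell, h.inf, ⟨h.sol.toAdm, fun z => ?_, fun z => ?_, fun i => ?_⟩, h.sub,
    fun j hj => by rw [σc_add k]; exact h.cut j hj, h.drop, h.lim, h.crit, fun a ha => ?_, h.int, h.lev⟩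
  · rw [Cfg.eD, e1, hD, smul_zero, add_zero]; exact h.sol.D z
  · rw [Cfg.eC, e2, hC, smul_zero, add_zero]; exact h.sol.C z
  · rw [e3, hS, mul_zero, add_zero]; exact h.sol.S i
  · have : ∀ q, (J.xs a).q q = 0 := fun q => by simp [Xs.q, (hP.nil a ha).2]
    rw [this, ← this q]
    exact h.brk a ha

variable {p : Prt A A' h} {U : Type} [Fintype U] {δ : ℝ} {b : Bp J c} {E : EC b p U δ}

/-- the terms vanish at `y` when they vanish at a point that represents `y` -/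
theorem tm_zero (H : CS σ E) (hu : W.un c p.P = univ) {y : J.Obc c} (S : SolOn p σ q y)
    {x : Pnt E.o r} {ψ : E.K} (R : E.RepC y x ψ) (e : b.θ p U x.t = y.s)
    (hD : ∀ z, (tm J c q' y.s).D x.cfg z = 0) (hC : ∀ z, (tm J c q' y.s).C x.cfg z = 0)
    (hS : ∀ i, (tm J c q' y.s).S x.cfg i = 0) : (∀ z, (tm J c q' y.s).D y.x z = 0) ∧
      (∀ z, (tm J c q' y.s).C y.x z = 0) ∧ ∀ i, (tm J c q' y.s).S y.x i = 0 := by
  obtain ⟨u, ζ, a, -⟩ := R.e
  have k := H.cr S R.s a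
  rw [e, hu] at k
  have k' := Eqv71.cr0_univ k.adm' k.adm (Eqv71.ceq_symm_id (Λ.B_ok _ _) (H.ok.G_ok H.mem S.ov)
    isOpen_univ k.adm k.adm' k.e)
  have t := Eqv71.prel0_fsum (H.ok.τw_nat H.mem S.ov isClopen_univ) q'
  refine ⟨fun z => (t.D k' z trivial).trans ?_, fun z => (t.C k' z trivial).trans ?_,
    fun i => (t.S k' i).trans ?_⟩
  · rw [hD, map_zero, ← Eqv71.csL_apply, map_zero]
  · rw [hC, map_zero]
  · rw [hS, mul_zero]

/-- the curvature terms at a point -/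
def tC (q' : Wi →₀ ℝ) (s : A' → ℝ) (x : Pnt E.o r) : (W.Z c).M → Fm (Option κ × Option κ) E.o.m.A := (tm J c q' s).C x.cfg

variable (H : (b.F p U δ).OK) (x : Pnt E.o r)
  {α : (W.Z c).M → Fm (Option κ) E.o.m.A} {φ : (W.Z c).M → E.o.m.V}
  (hα : α ∈ Mod61.Hs (b.F p U δ).F0.toPre E.o.P1) (hφ : φ ∈ Mod61.Hs (b.F p U δ).F0.toPre E.o.Pp)
  (ψ η : E.K) {f g : E.C → E.Y} (hf : E.Map q f) (hg : E.Map (q + q') g)
  (k : ∀ w ∈ q'.support, ∀ i, J.cc i w (b.θ p U x.t) = 0)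
include H hf hg k

/-- the change of the linearisation -/
abbrev dL : E.Y := Ld g x ψ ((ofV _ 9 _ α, ofV _ 9 _ φ, 0), η) - Ld f x ψ ((ofV _ 9 _ α, ofV _ 9 _ φ, 0), η)

theorem der_dL : HasDerivAt (fun s => g ((ln x hα hφ s).pt 8, ψ + s • η) -
    f ((ln x hα hφ s).pt 8, ψ + s • η)) (dL x ψ η (α := α) (φ := φ) (f := f) (g := g)) 0 :=
  (der_lnC H x hα hφ hg.sm ψ η).sub (der_lnC H x hα hφ hf.sm ψ η)

omit k in
theorem ev_sub (x : Pnt E.o r) (ψ : E.K) :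
    (∀ z, (b.F p U δ).F0.val 8 E.o.Pm (g (x.pt 8, ψ) - f (x.pt 8, ψ)).1.1 z =
      -(W.un c p.P').indicator ((tm J c q' (b.θ p U x.t)).D x.cfg) z) ∧
    (∀ z, vC (g (x.pt 8, ψ) - f (x.pt 8, ψ)) z =
      -(W.un c p.P).indicator (tC q' (b.θ p U x.t) x) z) ∧
    (∀ i, (g (x.pt 8, ψ) - f (x.pt 8, ψ)).1.2.2.1 i = -(tm J c q' (b.θ p U x.t)).S x.cfg i) ∧
    (g (x.pt 8, ψ) - f (x.pt 8, ψ)).1.2.2.2 = 0 := by
  obtain ⟨a1, a2, a3, a4⟩ := tot_ev (b := b) (p := p) (U := U) (δ := δ) (t := x.t) (q := q) x.cfg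
  obtain ⟨b1, b2, b3, b4⟩ := tot_ev (b := b) (p := p) (U := U) (δ := δ) (t := x.t) (q := q + q') x.cfg
  obtain ⟨e1, e2, e3⟩ := τ_add (J := J) (c := c) (q := q) (q' := q') (s := b.θ p U x.t) 1 x.cfg
  simp only [one_smul, Complex.ofReal_one, one_mul] at e1 e2 e3
  refine ⟨fun z => ?_, fun z => ?_, fun i => ?_, ?_⟩
  · rw [Prod.fst_sub, Prod.fst_sub, val_sub, (hg.e x ψ).D, (hf.e x ψ).D]
    refine ind_sub (fun z => ?_) z
    rw [a1, b1, Cfg.eD, Cfg.eD, e1]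
    abel
  · rw [vC, Prod.fst_sub, Prod.snd_sub, Prod.fst_sub, val_sub, (hg.e x ψ).C, (hf.e x ψ).C]
    refine ind_sub (fun z => ?_) z
    rw [a2, b2, Cfg.eC, Cfg.eC, e2, tC]
    abel
  · rw [Prod.fst_sub, Prod.snd_sub, Prod.snd_sub, Prod.fst_sub, (hg.e x ψ).S, (hf.e x ψ).S,
      Pi.sub_apply, a3, b3, e3]
    abel
  · rw [Prod.fst_sub, Prod.snd_sub, Prod.snd_sub, Prod.snd_sub, (hg.e x ψ).R, (hf.e x ψ).R, a4, b4,
      sub_self]

theorem ev_cut (s : ℝ) (ψ : E.K) :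
    (g ((ln x hα hφ s).pt 8, ψ) - f ((ln x hα hφ s).pt 8, ψ)).2 = 0 := by
  have e := fun i => σc_add (c := c) (q := q) k 1 i
  rw [one_smul] at e
  refine Prod.ext (funext fun i => ?_) (funext fun i => ?_)
  · rw [Prod.snd_sub, Prod.fst_sub, Pi.sub_apply, hg.row, hf.row]
    exact sub_eq_zero.2 (by unfold EC.row; rw [show (ln x hα hφ s).t = x.t from rfl, e])
  · rw [Prod.snd_sub, Prod.snd_sub, Pi.sub_apply, hg.nrm, hf.nrm, sub_self]; rfl

theorem der_1 : HasDerivAt (fun s => (g ((ln x hα hφ s).pt 8, ψ + s • η) -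
    f ((ln x hα hφ s).pt 8, ψ + s • η)).1) (dL x ψ η (α := α) (φ := φ) (f := f) (g := g)).1 0 :=
  dfst (X := E.o.Y n (min r 1) 8) (Y := E.K × (p.H → ℝ)) (der_dL H x hα hφ ψ η hf hg k)

theorem der_2 : HasDerivAt (fun s => (g ((ln x hα hφ s).pt 8, ψ + s • η) -
    f ((ln x hα hφ s).pt 8, ψ + s • η)).2) (dL x ψ η (α := α) (φ := φ) (f := f) (g := g)).2 0 :=
  dsnd (X := E.o.Y n (min r 1) 8) (Y := E.K × (p.H → ℝ)) (der_dL H x hα hφ ψ η hf hg k)

theorem dL_S {i : Fin n} {d : ℂ}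
    (hd : HasDerivAt (fun s => (tm J c q' (b.θ p U x.t)).S (ln x hα hφ s).cfg i) d 0) :
    (dL x ψ η (α := α) (φ := φ) (f := f) (g := g)).1.2.2.1 i = -d :=
  duq (dcl (X := Fin n → ℂ) (Y := ℂ) (.proj i) (dfst (dsnd (dsnd (der_1 H x hα hφ ψ η hf hg k))))) hd
    fun s => (ev_sub H hf hg (ln x hα hφ s) _).2.2.1 i

theorem dL_D {z : (W.Z c).M} (hz : z ∈ W.un c p.P') {d : E.o.m.V}
    (hd : HasDerivAt (F := E.o.m.V) (fun s => (tm J c q' (b.θ p U x.t)).D (ln x hα hφ s).cfg z) d 0) :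
    (b.F p U δ).F0.val 8 E.o.Pm (dL x ψ η (α := α) (φ := φ) (f := f) (g := g)).1.1 z = -d :=
  duq (dcl ((b.F p U δ).F0.ev 8 E.o.Pm z) (dfst (der_1 H x hα hφ ψ η hf hg k))) hd
    fun s => ((ev_sub H hf hg (ln x hα hφ s) _).1 z).trans (congrArg _ (indicator_of_mem hz _))

theorem dL_C {z : (W.Z c).M} (hz : z ∈ W.un c p.P) {d : Fm (Option κ × Option κ) E.o.m.A}
    (hd : HD (fun s => tC q' (b.θ p U x.t) (ln x hα hφ s) z) d) :
    vC (dL x ψ η (α := α) (φ := φ) (f := f) (g := g)) z = -d :=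
  duq (dcl ((b.F p U δ).F0.ev 8 E.o.P2 z) (dfst (dsnd (der_1 H x hα hφ ψ η hf hg k)))) hd
    fun s => ((ev_sub H hf hg (ln x hα hφ s) _).2.1 z).trans (congrArg _ (indicator_of_mem hz _))

include hα hφ

theorem dL_cut : (dL x ψ η (α := α) (φ := φ) (f := f) (g := g)).2 = 0 :=
  der_const (der_2 H x hα hφ ψ η hf hg k) fun s =>
    (ev_cut H x hα hφ hf hg k s _).trans (ev_cut H x hα hφ hf hg k 0 _).symm

theorem dL_R : (dL x ψ η (α := α) (φ := φ) (f := f) (g := g)).1.2.2.2 = 0 :=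
  der_const (dsnd (dsnd (dsnd (der_1 H x hα hφ ψ η hf hg k)))) fun _ =>
    (ev_sub H hf hg _ _).2.2.2.trans (ev_sub H hf hg _ _).2.2.2.symm

omit hf hg k hα hφ in
theorem va_eq : ((ofV _ 9 _ α, ofV _ 9 _ 0, 0), η) = va E α η :=
  congrArg (fun v => (((ofV _ 9 _ α, v, 0), η) : E.C)) (ofV_zero (F := (b.F p U δ).F0) (k := 9)
    (P := E.o.Pp) H.sup (by norm_num))

omit hg k g in
/-- a perturbation that keeps `y` gives a vector in the range -/
theorem hit0 (hu : W.un c p.P = univ) (hu' : W.un c p.P' = univ) {y : J.Obc c}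
    (st : Stk σ q y x ψ f) (k : Ld f x ψ ((ofV _ 9 _ α, ofV _ 9 _ φ, 0), η) = 0) (hp : q' ∈ Kp σ y)
    (e : b.θ p U x.t = s) (cc : ∀ a ∈ q'.support, ∀ i, J.cc i a s = 0) {dD : (W.Z c).M → E.o.m.V}
    {dC : (W.Z c).M → Fm (Option κ × Option κ) E.o.m.A} {dS : Fin n → ℂ}
    (eD : ∀ z, HD (X := E.o.m.V) (fun t => (tm J c q' s).D (ln x hα hφ t).cfg z) (dD z))
    (eC : ∀ z, HD (fun t => tC q' s (ln x hα hφ t) z) (dC z))
    (eS : ∀ i, HD (fun t => (tm J c q' s).S (ln x hα hφ t).cfg i) (dS i)) :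
    ∃ e ∈ range (Ld f x ψ), (b.F p U δ).F0.val 8 E.o.Pm e.1.1 = dD ∧ vC e = dC ∧
      e.1.2.2 = (dS, 0) ∧ e.2 = 0 := by
  subst e
  obtain ⟨g, m₀, r₀⟩ := st.st q' hp
  refine ⟨-dL x ψ η (α := α) (φ := φ) (f := f) (g := g), neg_rg (X := E.C) (Y := E.Y) k (r₀ _ k),
    funext fun z => ?_, funext fun z => ?_, ?_, neg_eq_zero.2 (dL_cut H x hα hφ ψ η hf m₀ cc)⟩
  · exact (congrFun (val_neg _) z).trans (neg_eq_iff_eq_neg.2
      (dL_D H x hα hφ ψ η hf m₀ cc (hu'.ge trivial) (eD z)))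
  · exact (congrFun (val_neg _) z).trans (neg_eq_iff_eq_neg.2
      (dL_C H x hα hφ ψ η hf m₀ cc (hu.ge trivial) (eC z)))
  · exact Prod.ext (funext fun i => neg_eq_iff_eq_neg.2 (dL_S H x hα hφ ψ η hf m₀ cc (eS i)))
      (neg_eq_zero.2 (dL_R H x hα hφ ψ η hf m₀ cc))

end job

section scene
open G75 Ins26 Jb7 Nt92
variable {κ lam : Type} [Fintype κ] [Fintype lam] [DecidableEq lam] {Lm : LM κ lam}
  {S : Scene Lm} {D : S.Dat} {i : S.L} {Wi : Type} {r n : ℕ}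
  {J : Job Wi (D.Λ i) (S.A ⊕ Unit) S.ls r n} {c : S.M.Cl} {δ : ℝ} {σ : Cel (S.A ⊕ Unit)} {R : S.A}
  {b : Bp J c} {E : ER σ R b δ} {q : Wi →₀ ℝ} {y : J.Obc c} {x : Pnt E.o r} {ψ : E.K}
  {ξ : (D.W.Z c).M → E.o.m.A} (C : Cr q y x ψ ξ)
include C

theorem pc (k : Bool) : S.M.sys.Piece c.1 (hp R k) := C.one ▸ Mp86.St.piece_hp k

theorem un_eq : D.W.un c {hp R true, hp R false} = univ := eq_univ_of_forall fun z =>
  let ⟨_, h1, h2⟩ := Cyl58.exists_pc D.W.toCaps z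
  mem_biUnion (Mp86.St.eq_hp (C.one ▸ h1)) h2

theorem oI_eq : oI D.W c R = D.W.φ c '' S.M.sys.U (hp R false) :=
  Subset.antisymm (fun _ hz => pc_tgt D.W.toCaps (pc C false) ⟨(D.W.tgt c).ge fun a ha k =>
      (C.np ((show a = R from C.one.le ha) ▸ k)).elim, hz⟩)
    (image_subset_iff.2 fun _ hx => (Cyl58.φ_mem_pc _ (pc C false)
      ((D.W.mem_src c).1 (U_src _ (pc C false) hx))).2 hx)

theorem rich : J.RichT y.s (hp R false) := by
  obtain ⟨Es, b', z, j, n₀, T, g⟩ := C.jr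
  obtain ⟨θ, ϖ, w⟩ := g.ri.rw
  exact ((g.gx.rich σ C.cs.mem _ C.sol.cell c C.sol.inf nofun).2 _ (pc C false)).1
    fun l hl k => w.nl ((Mp86.St.hp_some.1 k).1 ▸ hl)

theorem solOn : SolOn (pW J c (shX S {R}) σ R) σ q y :=
  have h := C.sol
  ⟨h.cell, h.inf, h.sol.toAdm, fun _ hz => (hz ((un_eq C).ge trivial)).elim,
    fun z _ => h.sol.D z, fun z _ => h.sol.C z, h.sol.S,
    fun i _ => h.cut i (((h.H_eq C.ti.1).trans C.unc).ge trivial),
    fun a b ha _ => h.lim a b ha, fun a ha b _ => h.crit a ha b, h.int.integrableOn⟩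

/-- perturbations without cut terms whose field terms vanish at `x` keep `y` -/
theorem kp (hP : PJ J c) {p : Wi →₀ ℝ} (k : ∀ w ∈ p.support, ∀ i, J.cc i w y.s = 0)
    (hD : ∀ z, (tm J c p y.s).D x.cfg z = 0) (hC : ∀ z, (tm J c p y.s).C x.cfg z = 0)
    (hS : ∀ i, (tm J c p y.s).S x.cfg i = 0) : p ∈ Kp σ y :=
  have a := tm_zero C.cs (un_eq C) (solOn C) C.ch.rep C.θ hD hC hS
  mem_Kp hP k a.1 a.2.1 a.2.2

theorem mem_P1 {α : (D.W.Z c).M → Fm (Option κ) E.o.m.A} (hα : α ∈ HA C) :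
    α ∈ Mod61.Hs (FW σ R b δ).F0.toPre E.o.P1 :=
  hs_ex C.cs.F.sup (fun z v e => by
    by_cases hz : z ∈ D.W.un c {hp R false}
    · refine (congrArg (fun T => idx _ T v) ?_).trans e
      exact (indicator_of_mem ((un_eq C).ge trivial) _).trans (indicator_of_mem hz _).symm
    · rw [idx_off (o := rf E x.t {hp R false} ∅ ∅) e hz, map_zero]) hα

/-- the curvature words inside are terms of the job -/
theorem has_ad {g g' f : (D.W.Z c).M → ℝ} (hg : Tf (D.W.Z c).I (oI D.W c R) g)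
    (hg' : Tf (D.W.Z c).I (oI D.W c R) g') (hf : Tf (D.W.Z c).I (oI D.W c R) f)
    {u : AW (D.W.Z c).M} (hu : AwIn (D.W.Z c).I (oI D.W c R) u) :
    ∃ v, (J.tp c).tm (J.tw v) = .ad g g' ⟨u.s, .mul f :: u.l⟩ ∧ J.co v y.s ≠ 0 ∧
      (∀ i, J.cc i v y.s = 0) ∧ J.Nn v y.s := by
  have iv := (inv_tp (J := J) (br_of C.cs.ok C.cs.mem C.sol.ov) (U_src D.W.toCaps (pc C false))).1
  rw [← oI_eq C] at iv
  exact iv.ad (Av := fun τ => ∃ v, (J.tp c).tm (J.tw v) = τ ∧ J.co v y.s ≠ 0 ∧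
      (∀ i, J.cc i v y.s = 0) ∧ J.Nn v y.s) (fun g g' s f u h1 h2 h3 =>
    let ⟨v, a, k⟩ := (rich C).a g g' s f u h1 h2 h3; ⟨v, congrArg _ a, k⟩)
    g g' u.s f u.l hg hg' ⟨hu.1, hu.2.cons hf⟩

omit C in
theorem wg_off {g : (D.W.Z c).M → ℝ} (g' : (D.W.Z c).M → ℝ) {z : (D.W.Z c).M} (hz : z ∉ tsupport g)
    (a : E.o.m.A) : wg (J.G c y.s).F E.o.m.A g g' z a = 0 := by
  rw [wg_apply]
  refine PiLp.ext fun s => ?_
  rw [PiLp.toLp_apply, image_eq_zero_of_notMem_tsupport (f := (J.G c y.s).F.D s.1 g)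
    fun k => hz ((J.G c y.s).F.tsupport_D g s.1 k), zero_mul, zero_smul]
  rfl

/-- a combination of curvature words as a perturbation -/
theorem words {g g' : (D.W.Z c).M → ℝ} (hg : Tf (D.W.Z c).I (oI D.W c R) g)
    (hg' : Tf (D.W.Z c).I (oI D.W c R) g') {w : AW (D.W.Z c).M →₀ ℝ}
    (w1 : ∀ u ∈ w.support, CvIn (D.W.Z c).I (oI D.W c R) u) : ∃ p : Wi →₀ ℝ,
    (∀ a ∈ p.support, ∀ i, J.cc i a y.s = 0) ∧ (∀ x' z, (tm J c p y.s).D x' z = 0) ∧
    (∀ x' i, (tm J c p y.s).S x' i = 0) ∧ ∀ (x' : Pnt E.o r) z, tC p y.s x' z =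
      E.o.m.p2 (J.B c) z (wg (J.G c y.s).F E.o.m.A g g' z
        (w.sum fun u a => a • cw E.o.m (J.G c y.s).F x'.cfg.W u z)) := by
  obtain ⟨χ, c1, c2, c3, c4⟩ := exists_cut (I := (D.W.Z c).I) hg.hcs.isCompact
    (Cyl58.isClopen_pc _ (pc C false)).2 hg.sub
  choose v v1 v2 v3 v4 using fun u : w.support => has_ad C hg hg' ⟨c1, c2, c3⟩ (w1 _ u.2).1
  refine ⟨∑ u, Finsupp.single (v u) (w u / J.co (v u) y.s), fun a ha => ?_, fun x' z => ?_,
    fun x' i => ?_, fun x' z => ?_⟩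
  · obtain ⟨u, rfl⟩ := supp_sum ha
    exact v3 u
  · exact ((tm_sum v _ v4 v2 x').1 z).trans (Finset.sum_eq_zero fun u _ => by
      rw [v1]; exact smul_zero _)
  · exact ((tm_sum v _ v4 v2 x').2.2 i).trans (Finset.sum_eq_zero fun u _ => by
      rw [v1]; exact smul_zero _)
  refine ((tm_sum v _ v4 v2 x'.cfg).2.1 z).trans (Eq.trans (Finset.sum_congr rfl fun u _ => ?_)
    (sum_cl (E.o.m.p2 (J.B c) z ∘L wg (J.G c y.s).F E.o.m.A g g' z) w _).symm)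
  rw [v1]
  refine congrArg (w u • ·) (congrArg (E.o.m.p2 (J.B c) z) ?_)
  refine (wg_apply (F := (J.G c y.s).F) g g' z (χ z • x'.cfg.aw (J.G c y.s).F u z)).symm.trans ?_
  by_cases hz : z ∈ tsupport g
  · rw [c4 z hz, one_smul, aw_eq _ _ (w1 _ u.2)]
    rfl
  · exact (wg_off g' hz _).trans (wg_off g' hz _).symm

omit C in
theorem ln_lnW {α : (D.W.Z c).M → Fm (Option κ) E.o.m.A} {φ : (D.W.Z c).M → E.o.m.V}
    (h1 : α ∈ Mod61.Hs (FW σ R b δ).F0.toPre E.o.P1) (h2 : φ ∈ Mod61.Hs (FW σ R b δ).F0.toPre E.o.Pp)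
    (s : ℝ) : (ln x h1 h2 s).cfg.W = lnW E.o.m x.cfg.W (fa E x.t α) s :=
  funext fun a => funext fun z => (ln_W x h1 h2 s a z).trans (by simp [lnW, Md.addC, Pnt.cfg])

/-- **the derivatives of the curvature words that vanish at the point are hit** -/
theorem hit (hP : PJ J c) {f : E.C → E.Y} (hf : E.Map q f) (st : Stk σ q y x ψ f)
    {α : (D.W.Z c).M → Fm (Option κ) E.o.m.A} {η : E.K} (hα : α ∈ HA C)
    (k : Ld f x ψ (va E α η) = 0) {g g' : (D.W.Z c).M → ℝ} (hg : Tf (D.W.Z c).I (oI D.W c R) g)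
    (hg' : Tf (D.W.Z c).I (oI D.W c R) g') {d : (D.W.Z c).M → E.o.m.A}
    (nd : ND (D.W.Z c).I E.o.m (J.G c y.s).F x.cfg.W (fa E x.t α) (oI D.W c R) d) :
    ∃ e ∈ range (Ld f x ψ), Tg ∅ (oI D.W c R) ∅ e ∧
      ∀ z, vC e z = E.o.m.p2 (J.B c) z (wg (J.G c y.s).F E.o.m.A g g' z (d z)) := by
  obtain ⟨w, w1, w2, -, w4⟩ := nd
  refine (words C hg hg' w1).elim fun p hw => ?_
  have cc := hw.1
  have eD := hw.2.1
  have eS := hw.2.2.1
  have eC := hw.2.2.2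
  have h1 := mem_P1 C hα
  have h2 := zero_mem (Mod61.Hs (FW σ R b δ).F0.toPre E.o.Pp)
  have k' := (congrArg (Ld f x ψ) (va_eq (α := α) C.cs.F η)).trans k
  have hp := kp C hP cc (eD _) (fun z => (eC x z).trans (by rw [w2, map_zero, map_zero]; rfl)) (eS _)
  have a1 : ∀ z, HD (X := E.o.m.V) (fun t => (tm J c p y.s).D (ln x h1 h2 t).cfg z) 0 := fun z =>
    .zero fun t => eD _ z
  have a2 : ∀ z, HD (fun t => tC p y.s (ln x h1 h2 t) z)
      (E.o.m.p2 (J.B c) z (wg (J.G c y.s).F E.o.m.A g g' z (d z))) := fun z =>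
    HD.congr (dcl _ (dcl _ (w4 z))) fun t => (eC _ z).trans (by rw [ln_lnW])
  have a3 : ∀ i, HD (fun t => (tm J c p y.s).S (ln x h1 h2 t).cfg i) 0 := fun i =>
    .zero fun t => eS _ i
  refine (hit0 C.cs.F x h1 h2 ψ η hf (un_eq C) (un_eq C) st k' hp C.θ cc a1 a2 a3).imp fun e he =>
    ⟨he.1, ⟨fun z _ => congrFun he.2.1 z, fun z hz => (congrFun he.2.2.1 z).trans ?_, he.2.2.2.1,
      fun i _ => ⟨congrArg (·.1 i) he.2.2.2.2, congrArg (·.2 i) he.2.2.2.2⟩⟩, congrFun he.2.2.1⟩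
  rw [wg_off g' fun k => hz (hg.sub k), map_zero]

end scene

end Crest.Agent.X212.Rc32
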